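import Mathlib
import Vale.Agent.Lib.P248.helper1.ConeAux

/-!
# P248: the shear of the dual space scales volumes of preimages by `1 / h`
-/

namespace Vale.Agent.Lib.P248.H61

open MeasureTheory Set
open scoped ENNReal
open Vale.Agent.Lib.P227 Vale.Agent.Lib.P248.H1

theorem shear_preimage {n : ℕ} (v : EuclideanSpace ℝ (Fin n)) (h : ℝ) (hh : 0 < h)
    (S : Set (EuclideanSpace ℝ (Fin (n + 1)))) (hS : MeasurableSet S) :
    volume (shear v h ⁻¹' S) = ENNReal.ofReal (1 / h) * volume S := by
  have hΦ := measurePreserving_ecomb n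
  have hcont : Continuous (shear v h) := by
    have h0 : Continuous fun y : EuclideanSpace ℝ (Fin (n + 1)) => y 0 := by fun_prop
    have h1 : Continuous fun y : EuclideanSpace ℝ (Fin (n + 1)) =>
        (h * y 0 + inner ℝ v (etail y), etail y) := by
      refine Continuous.prodMk ?_ continuous_etail
      exact (continuous_const.mul h0).add (continuous_const.inner continuous_etail)
    exact continuous_ecomb_prod.comp h1
  have hmS : MeasurableSet (shear v h ⁻¹' S) := hcont.measurable hS
  have hA : MeasurableSet ((fun p : ℝ × EuclideanSpace ℝ (Fin n) => ecomb p.1 p.2) ⁻¹'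
      (shear v h ⁻¹' S)) := hΦ.measurable hmS
  have hB : MeasurableSet ((fun p : ℝ × EuclideanSpace ℝ (Fin n) => ecomb p.1 p.2) ⁻¹' S) :=
    hΦ.measurable hS
  rw [← hΦ.measure_preimage hmS.nullMeasurableSet, ← hΦ.measure_preimage hS.nullMeasurableSet,
    Measure.prod_apply_symm hA, Measure.prod_apply_symm hB,
    ← lintegral_const_mul' _ _ ENNReal.ofReal_ne_top]
  apply lintegral_congr
  intro w
  have hset : (fun t : ℝ => (t, w)) ⁻¹'
        ((fun p : ℝ × EuclideanSpace ℝ (Fin n) => ecomb p.1 p.2) ⁻¹' (shear v h ⁻¹' S))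
      = (fun t : ℝ => h * t) ⁻¹' ((fun s : ℝ => s + inner ℝ v w) ⁻¹'
          ((fun t : ℝ => (t, w)) ⁻¹'
            ((fun p : ℝ × EuclideanSpace ℝ (Fin n) => ecomb p.1 p.2) ⁻¹' S))) := by
    ext t
    simp only [mem_preimage, shear, ecomb_zero, etail_ecomb]
  rw [hset, Real.volume_preimage_mul_left hh.ne', measure_preimage_add_right,
    abs_of_pos (inv_pos.2 hh), one_div]

end Vale.Agent.Lib.P248.H61
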