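import Mathlib

/-!
# P248: the dual profile of a nonnegative profile on `[0, h]`
-/

namespace Vale.Agent.Lib.P248.H61

open Set

/-- The dual profile of `a` on `[0, h]`: `b τ = inf {(1 - t τ) / a t : t ∈ [0, h], a t > 0}`. -/
noncomputable def dualProf (h : ℝ) (a : ℝ → ℝ) (τ : ℝ) : ℝ :=
  sInf ((fun t : ℝ => (1 - t * τ) / a t) '' {t | t ∈ Icc 0 h ∧ 0 < a t})

end Vale.Agent.Lib.P248.H61
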