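import Mathlib

/-!
# P248: definitions for the volume product of sets with homothetic parallel sections
-/

namespace Vale.Agent.Lib.P248.H61

open MeasureTheory
open scoped ENNReal Pointwise

/-- The polar set `S° = {y | ⟪x, y⟫ ≤ 1 for all x ∈ S}`. -/
def polarSet {m : ℕ} (S : Set (EuclideanSpace ℝ (Fin m))) : Set (EuclideanSpace ℝ (Fin m)) :=
  {y | ∀ x ∈ S, inner ℝ x y ≤ 1}

/-- The volume product `|S| |S°|` (Lebesgue measure, values in `[0, ∞]`). -/
noncomputable def volProd {m : ℕ} (S : Set (EuclideanSpace ℝ (Fin m))) : ℝ≥0∞ :=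
  volume S * volume (polarSet S)

/-- The section of `K ⊆ R^(n+1)` at first coordinate `t` is the dilate `a • A` of `A ⊆ R^n`
(in the last `n` coordinates). -/
def SectionIs {n : ℕ} (K : Set (EuclideanSpace ℝ (Fin (n + 1)))) (t a : ℝ)
    (A : Set (EuclideanSpace ℝ (Fin n))) : Prop :=
  ∀ x : EuclideanSpace ℝ (Fin (n + 1)), x 0 = t →
    (x ∈ K ↔ WithLp.toLp 2 (fun i : Fin n => x i.succ) ∈ a • A)

/-- `K` and `K'` have the same profile over `A` and `A'`: at every height `t` either both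
have no point with first coordinate `t`, or their sections are `a • A` and `a • A'` for one
and the same `a ≥ 0`. -/
def SameProfile {n : ℕ} (A A' : Set (EuclideanSpace ℝ (Fin n)))
    (K K' : Set (EuclideanSpace ℝ (Fin (n + 1)))) : Prop :=
  ∀ t : ℝ, ((∀ x ∈ K, x 0 ≠ t) ∧ (∀ x ∈ K', x 0 ≠ t)) ∨
    ∃ a : ℝ, 0 ≤ a ∧ SectionIs K t a A ∧ SectionIs K' t a A'

end Vale.Agent.Lib.P248.H61
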