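import Mathlib
import Vale.Agent.Lib.P248.helper37.Q2Defs

/-!
# P248 pool (helper61): the cone over the `k`-negative part of the polar of a facet

The cone with apex `-e_i / z_i` over the `k`-negative part of the polar of the facet `sec A i`
lies in the `(k+1)`-negative part of the polar of `A` about `z`, and its volume is
`|base| / ((n + 1) z_i)`.
-/

open MeasureTheory Set

namespace Vale.Agent.Lib.P248.H61P

open Vale.Agent.Lib.P248.H37 Vale.Agent.Lib.P248.H37Q

theorem pk_negCount_eq {m : ℕ} (y : Fin m → ℝ) :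
    negCount y = ∑ i, if y i < 0 then 1 else 0 :=
  Finset.card_filter _ _

theorem pk_measurableSet_polK {m : ℕ} (A : Set (Fin m → ℝ)) (z : Fin m → ℝ) (k : ℕ) :
    MeasurableSet (polK A z k) := by
  have hcl : IsClosed (polZ A z) := by
    have h : polZ A z = ⋂ x ∈ A, {y : Fin m → ℝ | ∑ i, (x i - z i) * y i ≤ 1} := by
      ext y
      simp only [Set.mem_iInter]
      exact Iff.rfl
    rw [h]
    refine isClosed_biInter fun x _ => ?_
    refine isClosed_le ?_ continuous_const
    exact continuous_finsetSum _ fun i _ => continuous_const.mul (continuous_apply i)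
  have hm : Measurable (fun y : Fin m → ℝ => negCount y) := by
    have h : (fun y : Fin m → ℝ => negCount y) =
        fun y => ∑ i, if y i < 0 then 1 else 0 := funext pk_negCount_eq
    rw [h]
    refine Finset.measurable_sum _ fun i _ => ?_
    exact Measurable.ite (measurableSet_lt (measurable_pi_apply i) measurable_const)
      measurable_const measurable_const
  have h : polK A z k = polZ A z ∩ (fun y : Fin m → ℝ => negCount y) ⁻¹' {k} := by
    ext y
    exact Iff.rfl
  rw [h]
  exact hcl.measurableSet.inter (hm (measurableSet_singleton k))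

/-- The one-dimensional integral of the cone profile. -/
theorem pk_lintegral_profile (n : ℕ) (c : ℝ) (hc : 0 < c) :
    ∫⁻ t in Ioo (-1 / c) (0 : ℝ), ENNReal.ofReal ((1 + c * t) ^ n)
      = ENNReal.ofReal (1 / (((n : ℝ) + 1) * c)) := by
  have ha : -1 / c ≤ 0 := by
    have : 0 < 1 / c := by positivity
    rw [neg_div]; linarith
  have hcont : Continuous (fun t : ℝ => (1 + c * t) ^ n) := by fun_prop
  have hint : IntegrableOn (fun t : ℝ => (1 + c * t) ^ n) (Ioo (-1 / c) (0 : ℝ)) :=
    (hcont.integrableOn_Icc).mono_set Ioo_subset_Icc_self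
  have hnn : 0 ≤ᵐ[volume.restrict (Ioo (-1 / c) (0 : ℝ))] (fun t : ℝ => (1 + c * t) ^ n) := by
    refine (ae_restrict_iff' measurableSet_Ioo).mpr (Filter.Eventually.of_forall fun t ht => ?_)
    have h1 : -1 < c * t := by
      have := mul_lt_mul_of_pos_left ht.1 hc
      rwa [mul_div_cancel₀ _ hc.ne'] at this
    exact pow_nonneg (by linarith) n
  rw [← ofReal_integral_eq_lintegral_ofReal hint hnn]
  congr 1
  rw [← integral_Ioc_eq_integral_Ioo, ← intervalIntegral.integral_of_le ha]
  have hderiv : ∀ x ∈ uIcc (-1 / c) (0 : ℝ),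
      HasDerivAt (fun t : ℝ => (1 / (((n : ℝ) + 1) * c)) * (1 + c * t) ^ (n + 1))
        ((1 + c * x) ^ n) x := by
    intro x _
    have h1 : HasDerivAt (fun t : ℝ => 1 + c * t) c x := by
      have h0 := ((hasDerivAt_id x).const_mul c).const_add 1
      simpa using h0
    have h2 : HasDerivAt (fun t : ℝ => (1 / (((n : ℝ) + 1) * c)) * (1 + c * t) ^ (n + 1))
        ((1 / (((n : ℝ) + 1) * c)) * (((n + 1 : ℕ) : ℝ) * (1 + c * x) ^ (n + 1 - 1) * c)) x :=
      (h1.pow (n + 1)).const_mul (1 / (((n : ℝ) + 1) * c))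
    refine h2.congr_deriv ?_
    have hn : (n : ℝ) + 1 ≠ 0 := by positivity
    rw [Nat.add_sub_cancel]
    push_cast
    field_simp
  rw [intervalIntegral.integral_eq_sub_of_hasDerivAt hderiv (hcont.intervalIntegrable _ _)]
  have h0 : 1 + c * (-1 / c) = 0 := by field_simp; ring
  rw [h0]
  simp

theorem polK_piece {n : ℕ} {A : Set (Fin (n + 1) → ℝ)} {z : Fin (n + 1) → ℝ} (h : Adm A z)
    (i : Fin (n + 1)) (k : ℕ) :
    ENNReal.ofReal (1 / (((n : ℝ) + 1) * z i)) *
        volume (polK (sec A i) (fun j => z (i.succAbove j)) k) ≤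
      volume (polK A z (k + 1) ∩ {y | y i < 0}) := by
  have hzi : 0 < z i := h.pos i
  obtain ⟨S, hSdef⟩ : ∃ S : Set (Fin n → ℝ),
      S = polK (sec A i) (fun j => z (i.succAbove j)) k := ⟨_, rfl⟩
  have hSm : MeasurableSet S := by rw [hSdef]; exact pk_measurableSet_polK _ _ _
  rw [← hSdef]
  obtain ⟨e, he⟩ : ∃ e : (Fin (n + 1) → ℝ) ≃ᵐ ℝ × (Fin n → ℝ),
      MeasurePreserving e volume volume ∧ ∀ y, e y = (y i, fun j => y (i.succAbove j)) :=
    ⟨MeasurableEquiv.piFinSuccAbove (fun _ => ℝ) i,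
      volume_preserving_piFinSuccAbove (fun _ => ℝ) i, fun y => rfl⟩
  obtain ⟨hemp, hey⟩ := he
  obtain ⟨G, hGdef⟩ : ∃ G : Set (ℝ × (Fin n → ℝ)),
      G = (Ioo (-1 / z i) (0 : ℝ) ×ˢ (univ : Set (Fin n → ℝ))) ∩
        (fun p : ℝ × (Fin n → ℝ) => (1 + z i * p.1)⁻¹ • p.2) ⁻¹' S := ⟨_, rfl⟩
  have hGmem : ∀ p : ℝ × (Fin n → ℝ), p ∈ G ↔
      (-1 / z i < p.1 ∧ p.1 < 0) ∧ (1 + z i * p.1)⁻¹ • p.2 ∈ S := by
    intro p
    rw [hGdef]
    simp only [mem_inter_iff, mem_prod, mem_Ioo, mem_univ, and_true, mem_preimage]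
  have hGm : MeasurableSet G := by
    rw [hGdef]
    refine (measurableSet_Ioo.prod MeasurableSet.univ).inter ?_
    have hmap : Measurable (fun p : ℝ × (Fin n → ℝ) => (1 + z i * p.1)⁻¹ • p.2) :=
      ((measurable_const.add (measurable_const.mul measurable_fst)).inv).smul measurable_snd
    exact hmap hSm
  -- (a) the inclusion
  have hsub : e ⁻¹' G ⊆ polK A z (k + 1) ∩ {y | y i < 0} := by
    intro y hy
    have hy' : e y ∈ G := hy
    rw [hey, hGmem] at hy'
    obtain ⟨⟨ht1, ht2⟩, hw⟩ := hy'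
    simp only at ht1 ht2 hw
    obtain ⟨lam, hlam⟩ : ∃ lam : ℝ, lam = 1 + z i * y i := ⟨_, rfl⟩
    have hlam0 : 0 < lam := by
      have := mul_lt_mul_of_pos_left ht1 hzi
      rw [mul_div_cancel₀ _ hzi.ne'] at this
      rw [hlam]; linarith
    obtain ⟨w, hwdef⟩ : ∃ w : Fin n → ℝ, w = lam⁻¹ • (fun j => y (i.succAbove j)) := ⟨_, rfl⟩
    have hwS : w ∈ S := by rw [hwdef, hlam]; exact hw
    have hyw : ∀ j, y (i.succAbove j) = lam * w j := by
      intro j
      rw [hwdef]
      simp only [Pi.smul_apply, smul_eq_mul]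
      rw [← mul_assoc, mul_inv_cancel₀ hlam0.ne', one_mul]
    rw [hSdef] at hwS
    obtain ⟨hwpol, hwcount⟩ := hwS
    refine ⟨⟨?_, ?_⟩, ht2⟩
    · -- membership in the polar
      intro x hx
      have hxsec : (fun j => x (i.succAbove j)) ∈ sec A i := by
        show (Fin.insertNth i (0 : ℝ) (fun j => x (i.succAbove j)) : Fin (n + 1) → ℝ) ∈ A
        refine h.good.down x hx _ ?_
        rw [i.forall_iff_succAbove]
        refine ⟨?_, fun j => ?_⟩
        · rw [ins_same]; exact ⟨le_refl _, h.good.nonneg x hx i⟩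
        · rw [ins_succ]; exact ⟨h.good.nonneg x hx _, le_refl _⟩
      have h1 : ∑ j, (x (i.succAbove j) - z (i.succAbove j)) * w j ≤ 1 := hwpol _ hxsec
      have hsum : ∑ l, (x l - z l) * y l
          = (x i - z i) * y i + lam * ∑ j, (x (i.succAbove j) - z (i.succAbove j)) * w j := by
        rw [Fin.sum_univ_succAbove _ i, Finset.mul_sum]
        congr 1
        apply Finset.sum_congr rfl
        intro j _
        rw [hyw j]; ring
      rw [hsum]
      have h2 : lam * ∑ j, (x (i.succAbove j) - z (i.succAbove j)) * w j ≤ lam :=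
        by nlinarith
      have h3 : x i * y i ≤ 0 := mul_nonpos_of_nonneg_of_nonpos (h.good.nonneg x hx i) ht2.le
      rw [hlam] at h2
      nlinarith
    · -- the number of negative coordinates
      rw [pk_negCount_eq, Fin.sum_univ_succAbove _ i, if_pos ht2]
      have hsum : (∑ j : Fin n, if y (i.succAbove j) < 0 then 1 else 0) = negCount w := by
        rw [pk_negCount_eq]
        apply Finset.sum_congr rfl
        intro j _
        have hiff : y (i.succAbove j) < 0 ↔ w j < 0 := by
          rw [hyw j]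
          constructor
          · intro hneg
            by_contra hnot
            have : 0 ≤ lam * w j := mul_nonneg hlam0.le (not_lt.mp hnot)
            linarith
          · intro hneg
            exact mul_neg_of_pos_of_neg hlam0 hneg
        simp only [hiff]
      rw [hsum, hwcount, add_comm]
  -- (b) the volume
  have hsec : ∀ t ∈ Ioo (-1 / z i) (0 : ℝ),
      volume (Prod.mk t ⁻¹' G) = ENNReal.ofReal ((1 + z i * t) ^ n) * volume S := by
    intro t ht
    have hlam0 : 0 < 1 + z i * t := by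
      have := mul_lt_mul_of_pos_left ht.1 hzi
      rw [mul_div_cancel₀ _ hzi.ne'] at this
      linarith
    have hset : Prod.mk t ⁻¹' G = (fun v : Fin n → ℝ => (1 + z i * t)⁻¹ • v) ⁻¹' S := by
      ext v
      simp only [mem_preimage]
      rw [hGmem]
      simp only
      constructor
      · intro hv; exact hv.2
      · intro hv; exact ⟨⟨ht.1, ht.2⟩, hv⟩
    rw [hset, Measure.addHaar_preimage_smul volume (inv_ne_zero hlam0.ne'),
      Module.finrank_fin_fun, inv_pow, inv_inv, abs_of_nonneg (pow_nonneg hlam0.le n)]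
  have hmf : Measurable (fun t : ℝ => ENNReal.ofReal ((1 + z i * t) ^ n)) := by fun_prop
  calc ENNReal.ofReal (1 / (((n : ℝ) + 1) * z i)) * volume S
      = (∫⁻ t in Ioo (-1 / z i) (0 : ℝ), ENNReal.ofReal ((1 + z i * t) ^ n)) * volume S := by
        rw [pk_lintegral_profile n (z i) hzi]
    _ = ∫⁻ t in Ioo (-1 / z i) (0 : ℝ), ENNReal.ofReal ((1 + z i * t) ^ n) * volume S := by
        rw [lintegral_mul_const _ hmf]
    _ ≤ ∫⁻ t in Ioo (-1 / z i) (0 : ℝ), volume (Prod.mk t ⁻¹' G) :=
        setLIntegral_mono' measurableSet_Ioo (fun t ht => (hsec t ht).ge)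
    _ ≤ ∫⁻ t, volume (Prod.mk t ⁻¹' G) := setLIntegral_le_lintegral _ _
    _ = (volume : Measure (ℝ × (Fin n → ℝ))) G := by
        rw [Measure.volume_eq_prod, Measure.prod_apply hGm]
    _ = volume (e ⁻¹' G) := (hemp.measure_preimage_equiv G).symm
    _ ≤ volume (polK A z (k + 1) ∩ {y | y i < 0}) := measure_mono hsub

end Vale.Agent.Lib.P248.H61P
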