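import Mathlib
import Vale.Agent.Lib.P248.helper37.Q2Defs

/-!
# P248 pool (helper61): transfer of the anti-blocking inequality about an interior point
from `Fin n → ℝ` to `EuclideanSpace ℝ (Fin n)`
-/

open MeasureTheory Set

namespace Vale.Agent.Lib.P248.H61Q

open Vale.Agent.Lib.P248.H37 Vale.Agent.Lib.P248.H37Q

theorem q2_euclid {n : ℕ}
    (hpi : ∀ (A : Set (Fin n → ℝ)) (z : Fin n → ℝ), Adm A z →
      ENNReal.ofReal (((n : ℝ) + 1) ^ (n + 1) / (n.factorial : ℝ) ^ 2)
        ≤ volume A * volume (polZ A z))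
    (A : Set (EuclideanSpace ℝ (Fin n))) (hconv : Convex ℝ A) (hcomp : IsCompact A)
    (hnn : ∀ x ∈ A, ∀ i, 0 ≤ x i)
    (hdown : ∀ x ∈ A, ∀ y : EuclideanSpace ℝ (Fin n), (∀ i, 0 ≤ y i ∧ y i ≤ x i) → y ∈ A)
    (z : EuclideanSpace ℝ (Fin n)) (hz : z ∈ interior A) :
    ENNReal.ofReal (((n : ℝ) + 1) ^ (n + 1) / (n.factorial : ℝ) ^ 2) ≤
      volume A * volume {y : EuclideanSpace ℝ (Fin n) | ∀ x ∈ A, inner ℝ (x - z) y ≤ 1} := by
  obtain ⟨A', hA'def⟩ : ∃ A' : Set (Fin n → ℝ), A' = WithLp.toLp 2 ⁻¹' A := ⟨_, rfl⟩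
  obtain ⟨z', hz'def⟩ : ∃ z' : Fin n → ℝ, z' = WithLp.ofLp z := ⟨_, rfl⟩
  have hz'i : ∀ i, z' i = z i := fun i => by rw [hz'def]
  have hz'z : WithLp.toLp 2 z' = z := by rw [hz'def]
  have hmem : ∀ w : Fin n → ℝ, w ∈ A' ↔ WithLp.toLp 2 w ∈ A := fun w => by rw [hA'def]; rfl
  have hzA : z ∈ A := interior_subset hz
  have hz'A : z' ∈ A' := by rw [hmem, hz'z]; exact hzA
  -- `z'` is an interior point of `A'` for the product topology
  have hz'int : z' ∈ interior A' := by
    have hopen : IsOpen (WithLp.toLp 2 ⁻¹' interior A : Set (Fin n → ℝ)) :=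
      isOpen_interior.preimage (PiLp.continuous_toLp 2 _)
    have hsub : (WithLp.toLp 2 ⁻¹' interior A : Set (Fin n → ℝ)) ⊆ A' := by
      rw [hA'def]; exact preimage_mono interior_subset
    refine interior_maximal hsub hopen ?_
    show WithLp.toLp 2 z' ∈ interior A
    rw [hz'z]; exact hz
  obtain ⟨δ, hδ, hball⟩ := Metric.mem_nhds_iff.1 (mem_interior_iff_mem_nhds.1 hz'int)
  have hnn' : ∀ x ∈ A', ∀ i, 0 ≤ x i := by
    intro x hx i
    have h := hnn _ ((hmem x).1 hx) i
    simpa using h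
  have hdown' : ∀ x ∈ A', ∀ y : Fin n → ℝ, (∀ i, 0 ≤ y i ∧ y i ≤ x i) → y ∈ A' := by
    intro x hx y hy
    rw [hmem] at hx ⊢
    exact hdown _ hx _ (fun i => by simpa using hy i)
  -- positivity of the coordinates of `z'`
  have hpos : ∀ i, 0 < z' i := by
    intro i
    have hx : Function.update z' i (z' i - δ / 2) ∈ A' := by
      apply hball
      rw [Metric.mem_ball, dist_eq_norm]
      have h1 : ‖Function.update z' i (z' i - δ / 2) - z'‖ ≤ δ / 2 := by
        rw [pi_norm_le_iff_of_nonneg (by positivity)]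
        intro j
        by_cases hj : j = i
        · subst hj
          simp only [Pi.sub_apply, Function.update_self, Real.norm_eq_abs]
          rw [show z' j - δ / 2 - z' j = -(δ / 2) by ring, abs_neg, abs_of_pos (by positivity)]
        · simp only [Pi.sub_apply, Function.update_of_ne hj, sub_self, norm_zero]
          positivity
      linarith
    have h2 := hnn' _ hx i
    rw [Function.update_self] at h2
    linarith
  have hroom : ∃ ε : ℝ, 0 < ε ∧ (fun i => z' i + ε) ∈ A' := by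
    refine ⟨δ / 2, by positivity, hball ?_⟩
    rw [Metric.mem_ball, dist_eq_norm]
    have h1 : ‖(fun i => z' i + δ / 2) - z'‖ ≤ δ / 2 := by
      rw [pi_norm_le_iff_of_nonneg (by positivity)]
      intro j
      simp only [Pi.sub_apply, Real.norm_eq_abs]
      rw [show z' j + δ / 2 - z' j = δ / 2 by ring, abs_of_pos (by positivity)]
    linarith
  have hcube : ∃ ε : ℝ, 0 < ε ∧ ∀ y : Fin n → ℝ, (∀ i, 0 ≤ y i ∧ y i ≤ ε) → y ∈ A' := by
    obtain ⟨ε, hε, hεz⟩ : ∃ ε : ℝ, 0 < ε ∧ ∀ i, ε ≤ z' i := by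
      rcases isEmpty_or_nonempty (Fin n) with he | hne
      · exact ⟨1, one_pos, fun i => he.elim i⟩
      · refine ⟨Finset.univ.inf' Finset.univ_nonempty z', ?_, fun i => ?_⟩
        · rw [Finset.lt_inf'_iff]
          exact fun i _ => hpos i
        · exact Finset.inf'_le _ (Finset.mem_univ i)
    exact ⟨ε, hε, fun y hy => hdown' z' hz'A y (fun i => ⟨(hy i).1, (hy i).2.trans (hεz i)⟩)⟩
  have hbdd : ∃ R : ℝ, ∀ x ∈ A', ∀ i, x i ≤ R := by
    obtain ⟨R, hR⟩ := hcomp.isBounded.exists_norm_le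
    refine ⟨R, fun x hx i => ?_⟩
    have h1 : ‖(WithLp.toLp 2 x : EuclideanSpace ℝ (Fin n)) i‖ ≤ ‖(WithLp.toLp 2 x :
        EuclideanSpace ℝ (Fin n))‖ := PiLp.norm_apply_le _ i
    have h2 : x i ≤ ‖(WithLp.toLp 2 x : EuclideanSpace ℝ (Fin n)) i‖ := by
      rw [Real.norm_eq_abs]
      exact le_abs_self _
    exact h2.trans (h1.trans (hR _ ((hmem x).1 hx)))
  have hA'conv : Convex ℝ A' := by
    intro x hx x' hx' a b ha hb hab
    rw [hmem] at hx hx' ⊢
    rw [WithLp.toLp_add, WithLp.toLp_smul, WithLp.toLp_smul]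
    exact hconv hx hx' ha hb hab
  have hA'closed : IsClosed A' := by
    rw [hA'def]
    exact hcomp.isClosed.preimage (PiLp.continuous_toLp 2 _)
  have hadm : Adm A' z' :=
    ⟨⟨hA'closed, hA'conv, hnn', hdown', hcube, hbdd⟩, hpos, hroom⟩
  have hmain := hpi A' z' hadm
  have hv1 : volume A' = volume A := by
    rw [hA'def]
    exact (PiLp.volume_preserving_toLp (Fin n)).measure_preimage
      hcomp.isClosed.measurableSet.nullMeasurableSet
  have hpolcl : IsClosed {y : EuclideanSpace ℝ (Fin n) | ∀ x ∈ A, inner ℝ (x - z) y ≤ 1} := by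
    have : {y : EuclideanSpace ℝ (Fin n) | ∀ x ∈ A, inner ℝ (x - z) y ≤ 1}
        = ⋂ x ∈ A, {y : EuclideanSpace ℝ (Fin n) | inner ℝ (x - z) y ≤ 1} := by
      ext y; simp
    rw [this]
    exact isClosed_biInter (fun x _ =>
      isClosed_le (continuous_const.inner continuous_id) continuous_const)
  have hpol : polZ A' z'
      = WithLp.toLp 2 ⁻¹' {y : EuclideanSpace ℝ (Fin n) | ∀ x ∈ A, inner ℝ (x - z) y ≤ 1} := by
    ext w
    have hw : w ∈ polZ A' z' ↔ ∀ x ∈ A', ∑ i, (x i - z' i) * w i ≤ 1 := Iff.rfl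
    rw [hw]
    simp only [Set.mem_ofPred_eq, mem_preimage]
    constructor
    · intro h x hx
      have h1 := h (WithLp.ofLp x) (by rw [hmem]; simpa using hx)
      have e : inner ℝ (x - z) (WithLp.toLp 2 w) = ∑ i, ((WithLp.ofLp x) i - z' i) * w i := by
        rw [PiLp.inner_apply]
        apply Finset.sum_congr rfl
        intro i _
        rw [hz'i]
        simp [mul_comm]
      rw [e]
      exact h1
    · intro h x hx
      have h1 := h (WithLp.toLp 2 x) ((hmem x).1 hx)
      have e : inner ℝ (WithLp.toLp 2 x - z) (WithLp.toLp 2 w) = ∑ i, (x i - z' i) * w i := by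
        rw [PiLp.inner_apply]
        apply Finset.sum_congr rfl
        intro i _
        rw [hz'i]
        simp [mul_comm]
      rw [e] at h1
      exact h1
  have hv2 : volume (polZ A' z')
      = volume {y : EuclideanSpace ℝ (Fin n) | ∀ x ∈ A, inner ℝ (x - z) y ≤ 1} := by
    rw [hpol]
    exact (PiLp.volume_preserving_toLp (Fin n)).measure_preimage
      hpolcl.measurableSet.nullMeasurableSet
  rw [hv1, hv2] at hmain
  exact hmain

end Vale.Agent.Lib.P248.H61Q
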