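import Mathlib
import Vale.Agent.Lib.P227.helper98.Fibre
import Vale.Agent.Lib.P248.helper61.Defs

/-!
# P248: the volume product of bodies with homothetic parallel sections

Two sets `K`, `K'` of `R x R^n` have the same profile over `A`, `A'` if for every height `t`
either both sections are empty, or the sections are `a • A` and `a • A'` with the same `a ≥ 0`.
Then `|K| |K°| |A'| |A'°| = |K'| |K'°| |A| |A°|`.
-/

namespace Vale.Agent.Lib.P248.H61

open MeasureTheory Set Vale.Agent.Lib.P227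
open scoped ENNReal Pointwise

variable {n : ℕ}

/-- The set of `η` with `<w, η> ≤ c` for all `w` in `A`; for `c = 1` this is the polar. -/
def dset (A : Set (EuclideanSpace ℝ (Fin n))) (c : ℝ) : Set (EuclideanSpace ℝ (Fin n)) :=
  {η | ∀ w ∈ A, inner ℝ w η ≤ c}

theorem dset_zero {A : Set (EuclideanSpace ℝ (Fin n))}
    (hA0 : (0 : EuclideanSpace ℝ (Fin n)) ∈ interior A) :
    dset A 0 = {(0 : EuclideanSpace ℝ (Fin n))} := by
  ext η
  simp only [dset, mem_ofPred_eq, mem_singleton_iff]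
  constructor
  · intro h
    by_contra hη
    obtain ⟨ε, hε, hball⟩ := Metric.mem_nhds_iff.1 (isOpen_interior.mem_nhds hA0)
    have hηn : 0 < ‖η‖ := norm_pos_iff.2 hη
    have hr : 0 < ε / (2 * ‖η‖) := by positivity
    have hw : (ε / (2 * ‖η‖)) • η ∈ A := by
      apply interior_subset
      apply hball
      rw [mem_ball_zero_iff, norm_smul, Real.norm_eq_abs, abs_of_pos hr]
      have e : ε / (2 * ‖η‖) * ‖η‖ = ε / 2 := by
        field_simp
      rw [e]
      linarith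
    have h1 := h _ hw
    rw [real_inner_smul_left, real_inner_self_eq_norm_sq] at h1
    have h2 : 0 < ε / (2 * ‖η‖) * ‖η‖ ^ 2 := by positivity
    linarith
  · rintro rfl w _
    simp

theorem dset_eq_smul {A : Set (EuclideanSpace ℝ (Fin n))}
    (hA0 : (0 : EuclideanSpace ℝ (Fin n)) ∈ interior A) {c : ℝ} (hc : 0 ≤ c) :
    dset A c = c • dset A 1 := by
  rcases hc.eq_or_lt with rfl | hc
  · have h1 : (0 : EuclideanSpace ℝ (Fin n)) ∈ dset A 1 := by
      intro w _
      simp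
    rw [zero_smul_set ⟨0, h1⟩, dset_zero hA0]
    rfl
  · ext η
    rw [mem_smul_set_iff_inv_smul_mem₀ hc.ne']
    simp only [dset, mem_ofPred_eq]
    constructor
    · intro h w hw
      rw [real_inner_smul_right, inv_mul_le_iff₀ hc]
      have := h w hw
      linarith
    · intro h w hw
      have := h w hw
      rw [real_inner_smul_right, inv_mul_le_iff₀ hc] at this
      linarith

theorem volume_dset {A : Set (EuclideanSpace ℝ (Fin n))}
    (hA0 : (0 : EuclideanSpace ℝ (Fin n)) ∈ interior A) {c : ℝ} (hc : 0 ≤ c) :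
    volume (dset A c) = ENNReal.ofReal (c ^ n) * volume (dset A 1) := by
  rw [dset_eq_smul hA0 hc, Measure.addHaar_smul, finrank_euclideanSpace_fin,
    abs_of_nonneg (pow_nonneg hc n)]

/-- The infimum of the admissible dilation factors at height `τ`. -/
noncomputable def cstar (P : Set (ℝ × ℝ)) (τ : ℝ) : ℝ :=
  sInf ((fun p : ℝ × ℝ => (1 - p.1 * τ) / p.2) '' {p | p ∈ P ∧ 0 < p.2})

open Classical in
/-- The volume of the set cut out by the profile `P` at height `τ` over `A`. -/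
theorem volume_profile {A : Set (EuclideanSpace ℝ (Fin n))}
    (hA0 : (0 : EuclideanSpace ℝ (Fin n)) ∈ interior A) (P : Set (ℝ × ℝ))
    (hP0 : ∀ p ∈ P, 0 ≤ p.2) (hP1 : ∃ p ∈ P, 0 < p.2) (τ : ℝ) :
    volume {η : EuclideanSpace ℝ (Fin n) | ∀ p ∈ P, ∀ w ∈ A, p.1 * τ + p.2 * inner ℝ w η ≤ 1} =
      (if ∃ p ∈ P, 1 < p.1 * τ then 0 else ENNReal.ofReal (cstar P τ ^ n)) *
        volume (dset A 1) := by
  have h0A : (0 : EuclideanSpace ℝ (Fin n)) ∈ A := interior_subset hA0
  by_cases hbad : ∃ p ∈ P, 1 < p.1 * τ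
  · rw [if_pos hbad, zero_mul]
    obtain ⟨p, hp, hpτ⟩ := hbad
    have hempty : {η : EuclideanSpace ℝ (Fin n) |
        ∀ p ∈ P, ∀ w ∈ A, p.1 * τ + p.2 * inner ℝ w η ≤ 1} = ∅ := by
      ext η
      simp only [mem_ofPred_eq, mem_empty_iff_false, iff_false]
      intro h
      have h1 := h p hp 0 h0A
      rw [inner_zero_left, mul_zero, add_zero] at h1
      linarith
    rw [hempty, measure_empty]
  · rw [if_neg hbad]
    have hgood : ∀ p ∈ P, p.1 * τ ≤ 1 := by
      intro p hp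
      by_contra hcon
      exact hbad ⟨p, hp, not_le.1 hcon⟩
    have hCne : ((fun p : ℝ × ℝ => (1 - p.1 * τ) / p.2) '' {p | p ∈ P ∧ 0 < p.2}).Nonempty := by
      obtain ⟨p, hp, hp2⟩ := hP1
      exact ⟨_, ⟨p, ⟨hp, hp2⟩, rfl⟩⟩
    have hC0 : ∀ c ∈ (fun p : ℝ × ℝ => (1 - p.1 * τ) / p.2) '' {p | p ∈ P ∧ 0 < p.2},
        0 ≤ c := by
      rintro c ⟨p, ⟨hp, hp2⟩, rfl⟩
      exact div_nonneg (by linarith [hgood p hp]) hp2.le
    have hCbdd : BddBelow ((fun p : ℝ × ℝ => (1 - p.1 * τ) / p.2) '' {p | p ∈ P ∧ 0 < p.2}) :=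
      ⟨0, fun c hc => hC0 c hc⟩
    have hc0 : 0 ≤ cstar P τ := Real.sInf_nonneg hC0
    have hset : {η : EuclideanSpace ℝ (Fin n) |
        ∀ p ∈ P, ∀ w ∈ A, p.1 * τ + p.2 * inner ℝ w η ≤ 1} = dset A (cstar P τ) := by
      ext η
      simp only [dset, mem_ofPred_eq]
      constructor
      · intro h w hw
        apply le_csInf hCne
        rintro c ⟨p, ⟨hp, hp2⟩, rfl⟩
        rw [le_div_iff₀ hp2]
        have := h p hp w hw
        linarith
      · intro h p hp w hw
        rcases (hP0 p hp).eq_or_lt with h2 | h2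
        · rw [← h2, zero_mul, add_zero]
          exact hgood p hp
        · have h3 : inner ℝ w η ≤ (1 - p.1 * τ) / p.2 :=
            (h w hw).trans (csInf_le hCbdd ⟨p, ⟨hp, h2⟩, rfl⟩)
          rw [le_div_iff₀ h2] at h3
          linarith
    rw [hset, volume_dset hA0 hc0]

/-- The sections of the polar of a set with profile `P` over `A`. -/
theorem sec_polar {A : Set (EuclideanSpace ℝ (Fin n))}
    {K : Set (EuclideanSpace ℝ (Fin (n + 1)))} (P : Set (ℝ × ℝ))
    (hKP : ∀ x ∈ K, ∃ a : ℝ, (x 0, a) ∈ P ∧ etail x ∈ a • A)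
    (hPK : ∀ p ∈ P, ∀ w ∈ A, ecomb p.1 (p.2 • w) ∈ K) (τ : ℝ) :
    sec τ {y : EuclideanSpace ℝ (Fin (n + 1)) | ∀ x ∈ K, inner ℝ x y ≤ 1} =
      {η : EuclideanSpace ℝ (Fin n) | ∀ p ∈ P, ∀ w ∈ A, p.1 * τ + p.2 * inner ℝ w η ≤ 1} := by
  ext η
  simp only [sec, mem_ofPred_eq]
  constructor
  · intro h p hp w hw
    have h1 := h _ (hPK p hp w hw)
    rw [inner_ecomb, real_inner_smul_left] at h1
    exact h1
  · intro h x hx
    obtain ⟨a, hxa, w, hw, hwe⟩ := hKP x hx
    rw [← ecomb_eta x, inner_ecomb, ← hwe, real_inner_smul_left]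
    exact h (x 0, a) hxa w hw

theorem isClosed_polar {E : Type*} [NormedAddCommGroup E] [InnerProductSpace ℝ E] (K : Set E) :
    IsClosed {y : E | ∀ x ∈ K, inner ℝ x y ≤ 1} := by
  have e : {y : E | ∀ x ∈ K, inner ℝ x y ≤ 1} = ⋂ x ∈ K, {y : E | inner ℝ x y ≤ 1} := by
    ext y
    simp
  rw [e]
  apply isClosed_biInter
  intro x _
  exact isClosed_le (by fun_prop) continuous_const

/-- **Transfer identity.** -/
theorem transfer (n : ℕ) (hn : 1 ≤ n)
    (A A' : Set (EuclideanSpace ℝ (Fin n))) (K K' : Set (EuclideanSpace ℝ (Fin (n + 1))))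
    (hA0 : (0 : EuclideanSpace ℝ (Fin n)) ∈ interior A)
    (hA'0 : (0 : EuclideanSpace ℝ (Fin n)) ∈ interior A')
    (hK : IsCompact K) (hK' : IsCompact K')
    (hfib : ∀ t : ℝ, ((∀ x ∈ K, x 0 ≠ t) ∧ (∀ x ∈ K', x 0 ≠ t)) ∨
      ∃ a : ℝ, 0 ≤ a ∧
        (∀ x : EuclideanSpace ℝ (Fin (n + 1)), x 0 = t →
          (x ∈ K ↔ WithLp.toLp 2 (fun i : Fin n => x i.succ) ∈ a • A)) ∧
        (∀ x : EuclideanSpace ℝ (Fin (n + 1)), x 0 = t →
          (x ∈ K' ↔ WithLp.toLp 2 (fun i : Fin n => x i.succ) ∈ a • A'))) :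
    volume K * volume {y : EuclideanSpace ℝ (Fin (n + 1)) | ∀ x ∈ K, inner ℝ x y ≤ 1} *
        (volume A' * volume {y : EuclideanSpace ℝ (Fin n) | ∀ x ∈ A', inner ℝ x y ≤ 1}) =
      volume K' * volume {y : EuclideanSpace ℝ (Fin (n + 1)) | ∀ x ∈ K', inner ℝ x y ≤ 1} *
        (volume A * volume {y : EuclideanSpace ℝ (Fin n) | ∀ x ∈ A, inner ℝ x y ≤ 1}) := by
  classical
  -- the set of admissible pairs
  obtain ⟨P, hPdef⟩ : ∃ P : Set (ℝ × ℝ), P = {p : ℝ × ℝ | 0 ≤ p.2 ∧
      (∀ x : EuclideanSpace ℝ (Fin (n + 1)), x 0 = p.1 → (x ∈ K ↔ etail x ∈ p.2 • A)) ∧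
      (∀ x : EuclideanSpace ℝ (Fin (n + 1)), x 0 = p.1 → (x ∈ K' ↔ etail x ∈ p.2 • A'))} :=
    ⟨_, rfl⟩
  have hmemP : ∀ p : ℝ × ℝ, p ∈ P ↔ (0 ≤ p.2 ∧
      (∀ x : EuclideanSpace ℝ (Fin (n + 1)), x 0 = p.1 → (x ∈ K ↔ etail x ∈ p.2 • A)) ∧
      (∀ x : EuclideanSpace ℝ (Fin (n + 1)), x 0 = p.1 → (x ∈ K' ↔ etail x ∈ p.2 • A'))) := by
    intro p
    rw [hPdef]
    rfl
  have hP0 : ∀ p ∈ P, 0 ≤ p.2 := fun p hp => ((hmemP p).1 hp).1
  have hKP : ∀ x ∈ K, ∃ a : ℝ, (x 0, a) ∈ P ∧ etail x ∈ a • A := by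
    intro x hx
    rcases hfib (x 0) with h | ⟨a, ha, h1, h2⟩
    · exact absurd rfl (h.1 x hx)
    · exact ⟨a, (hmemP (x 0, a)).2 ⟨ha, h1, h2⟩, (h1 x rfl).1 hx⟩
  have hKP' : ∀ x ∈ K', ∃ a : ℝ, (x 0, a) ∈ P ∧ etail x ∈ a • A' := by
    intro x hx
    rcases hfib (x 0) with h | ⟨a, ha, h1, h2⟩
    · exact absurd rfl (h.2 x hx)
    · exact ⟨a, (hmemP (x 0, a)).2 ⟨ha, h1, h2⟩, (h2 x rfl).1 hx⟩
  have hPK : ∀ p ∈ P, ∀ w ∈ A, ecomb p.1 (p.2 • w) ∈ K := by
    intro p hp w hw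
    have h1 := ((hmemP p).1 hp).2.1 (ecomb p.1 (p.2 • w)) (ecomb_zero _ _)
    rw [h1, etail_ecomb]
    exact smul_mem_smul_set hw
  have hPK' : ∀ p ∈ P, ∀ w ∈ A', ecomb p.1 (p.2 • w) ∈ K' := by
    intro p hp w hw
    have h1 := ((hmemP p).1 hp).2.2 (ecomb p.1 (p.2 • w)) (ecomb_zero _ _)
    rw [h1, etail_ecomb]
    exact smul_mem_smul_set hw
  -- sections of `K` and `K'`
  have hsec : ∀ t : ℝ, (sec t K = ∅ ∧ sec t K' = ∅) ∨
      ∃ a : ℝ, (t, a) ∈ P ∧ sec t K = a • A ∧ sec t K' = a • A' := by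
    intro t
    rcases hfib t with h | ⟨a, ha, h1, h2⟩
    · left
      constructor
      · ext w
        simp only [sec, mem_ofPred_eq, mem_empty_iff_false, iff_false]
        exact fun hw => h.1 _ hw (ecomb_zero t w)
      · ext w
        simp only [sec, mem_ofPred_eq, mem_empty_iff_false, iff_false]
        exact fun hw => h.2 _ hw (ecomb_zero t w)
    · right
      refine ⟨a, (hmemP (t, a)).2 ⟨ha, h1, h2⟩, ?_, ?_⟩
      · ext w
        simp only [sec, mem_ofPred_eq]
        have h3 := h1 (ecomb t w) (ecomb_zero t w)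
        have h4 : etail (ecomb t w) = w := etail_ecomb t w
        rw [← h4]
        exact h3
      · ext w
        simp only [sec, mem_ofPred_eq]
        have h3 := h2 (ecomb t w) (ecomb_zero t w)
        have h4 : etail (ecomb t w) = w := etail_ecomb t w
        rw [← h4]
        exact h3
  have hvolsmul : ∀ (a : ℝ) (B : Set (EuclideanSpace ℝ (Fin n))),
      volume (a • B) = ENNReal.ofReal (|a ^ n|) * volume B := by
    intro a B
    rw [Measure.addHaar_smul, finrank_euclideanSpace_fin]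
  have hKm : MeasurableSet K := hK.measurableSet
  have hK'm : MeasurableSet K' := hK'.measurableSet
  by_cases hP1 : ∃ p ∈ P, 0 < p.2
  · -- the main case
    have h1 : volume K * volume A' = volume K' * volume A := by
      rw [volume_eq_lintegral_sec hKm, volume_eq_lintegral_sec hK'm,
        ← lintegral_mul_const _ (measurable_volume_sec hKm),
        ← lintegral_mul_const _ (measurable_volume_sec hK'm)]
      apply lintegral_congr
      intro t
      rcases hsec t with ⟨e1, e2⟩ | ⟨a, -, e1, e2⟩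
      · rw [e1, e2, measure_empty, zero_mul, zero_mul]
      · rw [e1, e2, hvolsmul, hvolsmul]
        ring
    have hpm : MeasurableSet {y : EuclideanSpace ℝ (Fin (n + 1)) | ∀ x ∈ K, inner ℝ x y ≤ 1} :=
      (isClosed_polar K).measurableSet
    have hpm' : MeasurableSet
        {y : EuclideanSpace ℝ (Fin (n + 1)) | ∀ x ∈ K', inner ℝ x y ≤ 1} :=
      (isClosed_polar K').measurableSet
    have h2 : volume {y : EuclideanSpace ℝ (Fin (n + 1)) | ∀ x ∈ K, inner ℝ x y ≤ 1} *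
          volume {y : EuclideanSpace ℝ (Fin n) | ∀ x ∈ A', inner ℝ x y ≤ 1} =
        volume {y : EuclideanSpace ℝ (Fin (n + 1)) | ∀ x ∈ K', inner ℝ x y ≤ 1} *
          volume {y : EuclideanSpace ℝ (Fin n) | ∀ x ∈ A, inner ℝ x y ≤ 1} := by
      rw [volume_eq_lintegral_sec hpm, volume_eq_lintegral_sec hpm',
        ← lintegral_mul_const _ (measurable_volume_sec hpm),
        ← lintegral_mul_const _ (measurable_volume_sec hpm')]
      apply lintegral_congr
      intro τ
      rw [sec_polar P hKP hPK τ, sec_polar P hKP' hPK' τ,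
        volume_profile hA0 P hP0 hP1 τ, volume_profile hA'0 P hP0 hP1 τ]
      show _ * volume (dset A 1) * volume (dset A' 1) = _ * volume (dset A' 1) * volume (dset A 1)
      ring
    calc volume K * volume {y : EuclideanSpace ℝ (Fin (n + 1)) | ∀ x ∈ K, inner ℝ x y ≤ 1} *
          (volume A' * volume {y : EuclideanSpace ℝ (Fin n) | ∀ x ∈ A', inner ℝ x y ≤ 1})
        = (volume K * volume A') *
            (volume {y : EuclideanSpace ℝ (Fin (n + 1)) | ∀ x ∈ K, inner ℝ x y ≤ 1} *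
              volume {y : EuclideanSpace ℝ (Fin n) | ∀ x ∈ A', inner ℝ x y ≤ 1}) := by ring
      _ = (volume K' * volume A) *
            (volume {y : EuclideanSpace ℝ (Fin (n + 1)) | ∀ x ∈ K', inner ℝ x y ≤ 1} *
              volume {y : EuclideanSpace ℝ (Fin n) | ∀ x ∈ A, inner ℝ x y ≤ 1}) := by
          rw [h1, h2]
      _ = volume K' * volume {y : EuclideanSpace ℝ (Fin (n + 1)) | ∀ x ∈ K', inner ℝ x y ≤ 1} *
          (volume A * volume {y : EuclideanSpace ℝ (Fin n) | ∀ x ∈ A, inner ℝ x y ≤ 1}) := by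
          ring
  · -- degenerate case: all sections are empty or a point
    have hzero : ∀ p ∈ P, p.2 = 0 := by
      intro p hp
      by_contra hne
      exact hP1 ⟨p, hp, lt_of_le_of_ne (hP0 p hp) (Ne.symm hne)⟩
    have hn0 : n ≠ 0 := by omega
    have hvK : volume K = 0 := by
      rw [volume_eq_lintegral_sec hKm]
      have : ∀ t : ℝ, volume (sec t K) = 0 := by
        intro t
        rcases hsec t with ⟨e1, -⟩ | ⟨a, ha, e1, -⟩
        · rw [e1, measure_empty]
        · have ha0 : a = 0 := hzero (t, a) ha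
          rw [e1, hvolsmul, ha0, zero_pow hn0, abs_zero, ENNReal.ofReal_zero, zero_mul]
      simp [this]
    have hvK' : volume K' = 0 := by
      rw [volume_eq_lintegral_sec hK'm]
      have : ∀ t : ℝ, volume (sec t K') = 0 := by
        intro t
        rcases hsec t with ⟨-, e2⟩ | ⟨a, ha, -, e2⟩
        · rw [e2, measure_empty]
        · have ha0 : a = 0 := hzero (t, a) ha
          rw [e2, hvolsmul, ha0, zero_pow hn0, abs_zero, ENNReal.ofReal_zero, zero_mul]
      simp [this]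
    rw [hvK, hvK', zero_mul, zero_mul, zero_mul, zero_mul]

/-- **Transfer identity**, in terms of `volProd` and `SameProfile`. -/
theorem volProd_transfer (n : ℕ) (hn : 1 ≤ n)
    (A A' : Set (EuclideanSpace ℝ (Fin n))) (K K' : Set (EuclideanSpace ℝ (Fin (n + 1))))
    (hA0 : (0 : EuclideanSpace ℝ (Fin n)) ∈ interior A)
    (hA'0 : (0 : EuclideanSpace ℝ (Fin n)) ∈ interior A')
    (hK : IsCompact K) (hK' : IsCompact K') (hprof : SameProfile A A' K K') :
    volProd K * volProd A' = volProd K' * volProd A :=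
  transfer n hn A A' K K' hA0 hA'0 hK hK' hprof

end Vale.Agent.Lib.P248.H61
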